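import Mathlib
import Vale.Agent.Lib.P058.Defs

namespace Vale.Agent.Lib.P058.H47

open Vale.Agent.Lib.P058

theorem kite_relation (w1 w2 : ℂ) (t : ℝ) (h1 : Complex.normSq w1 = 1)
    (h2 : Complex.normSq w2 = 1)
    (ht : (1 + t) * Complex.normSq (w1 - 1) = (1 - t) * Complex.normSq (w2 - 1)) :
    w1 * ((starRingEnd ℂ) w1 - w2 - 2 * (t : ℂ))
        + w2 * (starRingEnd ℂ) ((starRingEnd ℂ) w1 - w2 - 2 * (t : ℂ))
      = (1 + (t : ℂ)) * ((starRingEnd ℂ) w1 - w2 - 2 * (t : ℂ))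
        + (1 - (t : ℂ)) * (starRingEnd ℂ) ((starRingEnd ℂ) w1 - w2 - 2 * (t : ℂ)) := by
  obtain ⟨x1, y1⟩ := w1
  obtain ⟨x2, y2⟩ := w2
  simp only [Complex.normSq_apply, Complex.sub_re, Complex.sub_im, Complex.one_re,
    Complex.one_im] at h1 h2 ht
  apply Complex.ext
  · simp
    linear_combination ht - t * h1 - t * h2
  · simp
    ring

theorem root_pow (n m : ℕ) (hn : 0 < n) :
    Complex.exp (((2 * (Real.pi * m / n) : ℝ) : ℂ) * Complex.I) ^ n = 1 := by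
  rw [← Complex.exp_nat_mul, Complex.exp_eq_one_iff]
  refine ⟨(m : ℤ), ?_⟩
  have hnC : (n : ℂ) ≠ 0 := by exact_mod_cast hn.ne'
  push_cast
  field_simp

theorem normSq_exp (θ : ℝ) : Complex.normSq (Complex.exp ((θ : ℂ) * Complex.I)) = 1 := by
  rw [Complex.normSq_eq_norm_sq, Complex.norm_exp_ofReal_mul_I, one_pow]

theorem normSq_exp_sub_one (α : ℝ) :
    Complex.normSq (Complex.exp (((2 * α : ℝ) : ℂ) * Complex.I) - 1) = 4 * Real.sin α ^ 2 := by
  rw [Complex.normSq_apply, Complex.sub_re, Complex.sub_im, Complex.exp_ofReal_mul_I_re,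
    Complex.exp_ofReal_mul_I_im, Complex.one_re, Complex.one_im, sub_zero, Real.cos_two_mul,
    Real.sin_two_mul]
  have h := Real.sin_sq_add_cos_sq α
  linear_combination (4 * Real.cos α ^ 2 - 4) * h

theorem root_exists (n m : ℕ) (hn : 0 < n) :
    ∃ w : ℂ, w ^ n = 1 ∧ Complex.normSq w = 1 ∧
      Complex.normSq (w - 1) = 4 * Real.sin (Real.pi * m / n) ^ 2 ∧
      w.im = Real.sin (2 * (Real.pi * m / n)) :=
  ⟨Complex.exp (((2 * (Real.pi * m / n) : ℝ) : ℂ) * Complex.I), root_pow n m hn, normSq_exp _,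
    normSq_exp_sub_one _, Complex.exp_ofReal_mul_I_im _⟩

theorem angle_facts (n m : ℕ) (hm : 0 < m) (hmn : 2 * m ≤ n) :
    0 < Real.sin (Real.pi * m / n) ∧ 0 ≤ Real.sin (2 * (Real.pi * m / n)) ∧
      (2 * m < n → 0 < Real.sin (2 * (Real.pi * m / n))) := by
  have hn : 0 < n := by omega
  have hnR : (0 : ℝ) < n := by exact_mod_cast hn
  have hmR : (0 : ℝ) < m := by exact_mod_cast hm
  have hpi := Real.pi_pos
  have h0 : 0 < Real.pi * m / n := by positivity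
  have h2 : 2 * (Real.pi * m / n) ≤ Real.pi := by
    have h3 : (2 * (m : ℝ)) / n ≤ 1 := by
      rw [div_le_one hnR]; exact_mod_cast hmn
    have h4 : 2 * (Real.pi * m / n) = Real.pi * ((2 * (m : ℝ)) / n) := by ring
    rw [h4]
    nlinarith
  refine ⟨Real.sin_pos_of_pos_of_lt_pi h0 (by linarith),
    Real.sin_nonneg_of_nonneg_of_le_pi (by linarith) h2, ?_⟩
  intro hlt
  have h3 : (2 * (m : ℝ)) / n < 1 := by
    rw [div_lt_one hnR]; exact_mod_cast hlt
  have h4 : 2 * (Real.pi * m / n) = Real.pi * ((2 * (m : ℝ)) / n) := by ring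
  apply Real.sin_pos_of_pos_of_lt_pi (by linarith)
  rw [h4]
  nlinarith

theorem kite_points (n j k : ℕ) (hj : 0 < j) (hk : 0 < k) (hjn : 2 * j ≤ n) (hkn : 2 * k ≤ n)
    (hjk : j + k < n) :
    ∃ (a b c d : ℂ) (t : ℝ), b ∈ Dorb n a ∧ c ∈ Dorb n a ∧ d ∈ Dorb n a ∧ a ≠ c ∧
      Complex.normSq b = Complex.normSq a ∧ Complex.normSq c = Complex.normSq a ∧
      Complex.normSq d = Complex.normSq a ∧
      b + d = (1 + (t : ℂ)) * a + (1 - (t : ℂ)) * c ∧
      (1 + t) * Real.sin (Real.pi * j / n) ^ 2 = (1 - t) * Real.sin (Real.pi * k / n) ^ 2 := by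
  have hn : 0 < n := by omega
  obtain ⟨w1, hw1n, hw1N, hw1A, hw1im⟩ := root_exists n j hn
  obtain ⟨w2, hw2n, hw2N, hw2A, hw2im⟩ := root_exists n k hn
  obtain ⟨hsα, hs2α, hs2α'⟩ := angle_facts n j hj hjn
  obtain ⟨hsβ, hs2β, hs2β'⟩ := angle_facts n k hk hkn
  have hApos : 0 < Real.sin (Real.pi * j / n) ^ 2 := by positivity
  have hBpos : 0 < Real.sin (Real.pi * k / n) ^ 2 := by positivity
  have hrel : (1 + (Real.sin (Real.pi * k / n) ^ 2 - Real.sin (Real.pi * j / n) ^ 2)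
        / (Real.sin (Real.pi * j / n) ^ 2 + Real.sin (Real.pi * k / n) ^ 2))
          * Real.sin (Real.pi * j / n) ^ 2
      = (1 - (Real.sin (Real.pi * k / n) ^ 2 - Real.sin (Real.pi * j / n) ^ 2)
        / (Real.sin (Real.pi * j / n) ^ 2 + Real.sin (Real.pi * k / n) ^ 2))
          * Real.sin (Real.pi * k / n) ^ 2 := by
    have hsum : Real.sin (Real.pi * j / n) ^ 2 + Real.sin (Real.pi * k / n) ^ 2 ≠ 0 := by
      positivity
    field_simp
    ring
  generalize (Real.sin (Real.pi * k / n) ^ 2 - Real.sin (Real.pi * j / n) ^ 2)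
        / (Real.sin (Real.pi * j / n) ^ 2 + Real.sin (Real.pi * k / n) ^ 2) = t at hrel
  have ht : (1 + t) * Complex.normSq (w1 - 1) = (1 - t) * Complex.normSq (w2 - 1) := by
    rw [hw1A, hw2A]
    linear_combination 4 * hrel
  refine ⟨(starRingEnd ℂ) w1 - w2 - 2 * (t : ℂ), w1 * ((starRingEnd ℂ) w1 - w2 - 2 * (t : ℂ)),
    (starRingEnd ℂ) ((starRingEnd ℂ) w1 - w2 - 2 * (t : ℂ)),
    w2 * (starRingEnd ℂ) ((starRingEnd ℂ) w1 - w2 - 2 * (t : ℂ)), t,
    ⟨w1, hw1n, Or.inl rfl⟩, ⟨1, one_pow n, Or.inr (one_mul _).symm⟩, ⟨w2, hw2n, Or.inr rfl⟩,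
    ?_, ?_, ?_, ?_, kite_relation w1 w2 t hw1N hw2N ht, hrel⟩
  · intro h
    have him : ((starRingEnd ℂ) w1 - w2 - 2 * (t : ℂ)).im = 0 :=
      Complex.conj_eq_iff_im.mp h.symm
    have him2 : ((starRingEnd ℂ) w1 - w2 - 2 * (t : ℂ)).im = -w1.im - w2.im := by
      simp
    rw [him2, hw1im, hw2im] at him
    rcases Nat.lt_or_ge (2 * j) n with hlt | hge
    · have := hs2α' hlt
      linarith
    · have := hs2β' (by omega)
      linarith
  · rw [Complex.normSq_mul, hw1N, one_mul]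
  · exact Complex.normSq_conj _
  · rw [Complex.normSq_mul, hw2N, one_mul, Complex.normSq_conj]

end Vale.Agent.Lib.P058.H47
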